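import Vale.Agent.P245.H316.Fill
import Vale.Agent.P245.H316.Stmt3
import Vale.Agent.P245.H847.Multi

/-!
P245: the hand-in `DimensionFreePoincare` with the logarithmic Sobolev inequality for functions
whose level sets have convex outer boundary (assembly of helper847, over `H316.Fill`).
-/

open MeasureTheory Matrix
open scoped ContDiff

namespace Vale.Agent.P245.H316

open Vale.Agent.P245 Vale.Agent.P245.H847

variable {n : ℕ} {μ : Measure (EuclideanSpace ℝ (Fin n))}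

theorem handin5
    (h : ∃ C : ℝ, 0 < C ∧ ∀ (n : ℕ) (μ : Measure (EuclideanSpace ℝ (Fin n))) [IsProbabilityMeasure μ],
      HasLogConcaveDensity μ → ∀ (b : Fin n → ℝ) (K : Matrix (Fin n) (Fin n) ℝ),
      (∀ i, ∫ x, x i ∂μ = b i) → (∀ i j, ∫ x, (x i - b i) * (x j - b j) ∂μ = K i j) →
      ∀ f : EuclideanSpace ℝ (Fin n) → ℝ, ContDiff ℝ ∞ f → HasCompactSupport f →
        (∫ x, f x ^ 2 ∂μ) - (∫ x, f x ∂μ) ^ 2 ≤
          C * ∫ x, ∑ i, ∑ j, K i j * (gradient f x i * gradient f x j) ∂μ)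
    (hM : ∃ M : ℝ, 0 < M ∧ ∀ (n : ℕ) (μ : Measure (EuclideanSpace ℝ (Fin n)))
      [IsProbabilityMeasure μ], HasLogConcaveDensity μ → ∀ a : ℝ, 0 < a →
      LinearlySubgaussian μ a → DFP.OuterLogSobolev μ (M * a ^ 2)) :
    ∃ C : ℝ, 0 < C ∧ ∀ (n : ℕ) (μ : Measure (EuclideanSpace ℝ (Fin n))) [IsProbabilityMeasure μ],
      HasLogConcaveDensity μ →
      DFP.AffinePoincare μ C ∧
      (∀ Λ : ℝ, 0 ≤ Λ → DFP.CovarianceLE μ Λ → DFP.SmoothInequalities μ (C * Λ)) ∧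
      (∀ a : ℝ, 0 < a → LinearlySubgaussian μ a →
        DFP.SmoothInequalities μ (C * a ^ 2) ∧ DFP.OuterLogSobolev μ (C * a ^ 2) ∧
        DFP.PolynomialLogSobolev μ (C * a ^ 2) ∧ DFP.KurtosisLogSobolev μ (C * a ^ 2) ∧
        DFP.ConvexIsoperimetry μ C a ∧ DFP.ConvexConcentration μ C a) := by
  obtain ⟨C, hC, h⟩ := handin3 h
  obtain ⟨M, hM0, hM⟩ := hM
  have e0 : C ≤ 480 * C + M := by linarith only [hC, hM0]
  have e1 : 480 * C ≤ 480 * C + M := by linarith only [hM0]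
  have e2 : M ≤ 480 * C + M := by linarith only [hC]
  have hCM : 0 < 480 * C + M := by positivity
  refine ⟨480 * C + M, hCM, fun n μ _ hlc => ?_⟩
  obtain ⟨h1, h2⟩ := h n μ hlc
  refine ⟨fun b K hb hK f hf hfc => ?_, fun Λ hΛ0 hΛ => ?_, fun a ha hsub => ?_⟩
  · have g1 := (h1 b K hb hK f hf hfc).1
    have hv0 : 0 ≤ ∫ x, ∑ i, ∑ j, K i j * (gradient f x i * gradient f x j) ∂μ := by
      refine le_of_mul_le_mul_left ?_ hC
      rw [mul_zero]
      exact (var_nonneg hf.continuous hfc).trans g1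
    exact g1.trans (mul_le_mul_of_nonneg_right e0 hv0)
  · have key := fun f (hf : ContDiff ℝ ∞ f) (hfc : HasCompactSupport f) =>
      (h1 (fun i => ∫ x, x i ∂μ)
      (fun i j => ∫ x, (x i - ∫ x, x i ∂μ) * (x j - ∫ x, x j ∂μ) ∂μ) (fun i => rfl)
      (fun i j => rfl) f hf hfc).2 Λ hΛ0 fun v => by
        refine le_trans (le_of_eq ?_) (hΛ v)
        simp only [dotProduct, mulVec, Finset.mul_sum]
        exact Finset.sum_congr rfl fun i _ => Finset.sum_congr rfl fun j _ => by ring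
    refine smooth_of (P := C * Λ) (by positivity) ?_ (fun f hf hfc => (key f hf hfc).1)
      fun f hf hfc p hp => ?_
    · rw [← mul_assoc]
      exact mul_le_mul_of_nonneg_right e1 hΛ0
    · refine ((key f hf hfc).2.2 p hp).trans (le_of_eq ?_)
      ring
  · obtain ⟨g1, g2, g3, g4, g5, g6⟩ := h2 a ha hsub
    have ha2 : 0 ≤ a ^ 2 := sq_nonneg a
    have e3 : C * a ^ 2 ≤ (480 * C + M) * a ^ 2 := mul_le_mul_of_nonneg_right e0 ha2
    refine ⟨?_, fun f hf hfc T hT hq => ?_, fun d q hq f hfq => ?_,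
      fun f hf hfc k hk hfk => ?_, ⟨fun A hA hAc hA0 hA1 r hr0 hra => ?_, fun Ω hΩ hne => ?_⟩,
      fun F hF hFc t ht => ⟨?_, ?_⟩⟩
    · refine smooth_of (P := C * a ^ 2) (by positivity) ?_ (fun f hf hfc => (g1 f hf hfc).1)
        fun f hf hfc p hp => ?_
      · rw [← mul_assoc]
        exact mul_le_mul_of_nonneg_right e1 ha2
      · refine ((g1 f hf hfc).2.2.2 p hp).trans (le_of_eq ?_)
        ring
    · refine (hM n μ hlc a ha hsub f hf hfc T hT hq).trans ?_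
      have hl : 0 ≤ 1 + Real.log (1 + T ^ 2 / ∫ x, f x ^ 2 ∂μ) := by
        have h0 : 0 ≤ ∫ y, f y ^ 2 ∂μ := integral_nonneg fun x => sq_nonneg _
        have h1 : 0 ≤ T ^ 2 / ∫ y, f y ^ 2 ∂μ := by positivity
        have h2 : 0 ≤ Real.log (1 + T ^ 2 / ∫ y, f y ^ 2 ∂μ) :=
          Real.log_nonneg (by linarith only [h1])
        linarith only [h2]
      have hI : 0 ≤ ∫ x, ‖gradient f x‖ ^ 2 ∂μ := integral_nonneg fun x => by positivity
      gcongr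
    · refine (g2 d q hq f hfq).trans ?_
      have hI : 0 ≤ ∫ x, ‖gradient f x‖ ^ 2 ∂μ := integral_nonneg fun x => by positivity
      calc C * (d + 1) * a ^ 2 * ∫ x, ‖gradient f x‖ ^ 2 ∂μ
          = C * a ^ 2 * (d + 1) * ∫ x, ‖gradient f x‖ ^ 2 ∂μ := by ring
        _ ≤ (480 * C + M) * a ^ 2 * (d + 1) * ∫ x, ‖gradient f x‖ ^ 2 ∂μ := by gcongr
    · refine (((g1 f hf hfc).2.2.1) k hk hfk).trans ?_
      have hI : 0 ≤ ∫ x, ‖gradient f x‖ ^ 2 ∂μ := integral_nonneg fun x => by positivity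
      have hl : 0 ≤ 1 + Real.log k := by
        have := Real.log_nonneg hk
        linarith only [this]
      calc C * (1 + Real.log k) * a ^ 2 * ∫ x, ‖gradient f x‖ ^ 2 ∂μ
          = C * a ^ 2 * (1 + Real.log k) * ∫ x, ‖gradient f x‖ ^ 2 ∂μ := by ring
        _ ≤ (480 * C + M) * a ^ 2 * (1 + Real.log k) * ∫ x, ‖gradient f x‖ ^ 2 ∂μ := by gcongr
    · refine le_trans ?_ (g6 A hA hAc hA0 hA1 r hr0 hra)
      refine mul_le_mul_of_nonneg_left ?_ hA0.le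
      have hnum : 0 ≤ r * √(Real.log (1 / μ.real A)) := mul_nonneg hr0 (Real.sqrt_nonneg _)
      have := div_le_div_of_nonneg_left hnum (show 0 < C * a by positivity)
        (mul_le_mul_of_nonneg_right e0 ha.le)
      linarith only [this]
    · exact (g4 Ω hΩ hne).trans (Real.exp_le_exp.2 (by gcongr))
    · refine (g3 F hF hFc t ht).1.trans (Real.exp_le_exp.2 ?_)
      gcongr
    · exact (g3 F hF hFc t ht).2.trans (Real.exp_le_exp.2 (by gcongr))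

theorem lsi_outer_of_sub {n : ℕ} {μ : Measure (EuclideanSpace ℝ (Fin n))} [IsProbabilityMeasure μ]
    {a C0 P : ℝ} (ha : 0 < a) (hC0 : 0 < C0)
    (hK : H607.KLS C0) (hlc : HasLogConcaveDensity μ) (hsub : LinearlySubgaussian μ a)
    (hP0 : 0 ≤ P)
    (hP : ∀ f : EuclideanSpace ℝ (Fin n) → ℝ, ContDiff ℝ ∞ f → HasCompactSupport f →
      (∫ x, f x ^ 2 ∂μ) - (∫ x, f x ∂μ) ^ 2 ≤ P * ∫ x, ‖gradient f x‖ ^ 2 ∂μ)
    {f : EuclideanSpace ℝ (Fin n) → ℝ} (hf : ContDiff ℝ ∞ f) (hfc : HasCompactSupport f)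
    {T : ℝ} (hq : ∀ᵐ t : ℝ, T < t → DFP.OuterConvex μ {x | t ≤ |f x|}) :
    Entropy μ (fun x => f x ^ 2) ≤
      (280 * P + 655360 * ((8 * C0 + 26) * a ^ 2)) *
        (1 + Real.log (1 + T ^ 2 / ∫ x, f x ^ 2 ∂μ)) * ∫ x, ‖gradient f x‖ ^ 2 ∂μ := by
  have hlog : 0 < Real.log 2 := Real.log_pos (by norm_num)
  have h := lsi_outer (κ := 16 * √((8 * C0 + 26) * a ^ 2))
    (r₀ := 8 * √((8 * C0 + 26) * a ^ 2 * Real.log 2))
    (by positivity) (by positivity) hP0 (iso_convex ha hC0 hK hlc hsub) hP hf hfc (T := T) hq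
  have e : 2560 * (16 * √((8 * C0 + 26) * a ^ 2)) ^ 2 = 655360 * ((8 * C0 + 26) * a ^ 2) := by
    rw [mul_pow, Real.sq_sqrt (by positivity)]; ring
  rw [e] at h
  exact h

theorem outer_of (h : ∃ C : ℝ, 0 < C ∧ H607.KLS C) :
    ∃ M : ℝ, 0 < M ∧ ∀ (n : ℕ) (μ : Measure (EuclideanSpace ℝ (Fin n)))
      [IsProbabilityMeasure μ], HasLogConcaveDensity μ → ∀ a : ℝ, 0 < a →
      LinearlySubgaussian μ a → DFP.OuterLogSobolev μ (M * a ^ 2) := by
  obtain ⟨C, hC, h⟩ := h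
  have hmain := handin hC h
  refine ⟨280 * (200 * C) + 655360 * (8 * C + 26), by positivity,
    fun n μ _ hlc a ha hsub f hf hfc T _ hq => ?_⟩
  have hP : ∀ g : EuclideanSpace ℝ (Fin n) → ℝ, ContDiff ℝ ∞ g → HasCompactSupport g →
      (∫ x, g x ^ 2 ∂μ) - (∫ x, g x ∂μ) ^ 2 ≤ 200 * C * a ^ 2 * ∫ x, ‖gradient g x‖ ^ 2 ∂μ :=
    fun g hg hgc => ((hmain n μ hlc (fun i => ∫ x, x i ∂μ)
      (fun i j => ∫ x, (x i - ∫ x, x i ∂μ) * (x j - ∫ x, x j ∂μ) ∂μ) (fun i => rfl)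
      (fun i j => rfl) g hg hgc).2.2 a ha hsub).1
  refine (lsi_outer_of_sub ha hC h hlc hsub (by positivity) hP hf hfc hq).trans (le_of_eq ?_)
  ring

theorem handin7
    (h : ∃ C : ℝ, 0 < C ∧ ∀ (n : ℕ) (μ : Measure (EuclideanSpace ℝ (Fin n))) [IsProbabilityMeasure μ],
      HasLogConcaveDensity μ → ∀ (b : Fin n → ℝ) (K : Matrix (Fin n) (Fin n) ℝ),
      (∀ i, ∫ x, x i ∂μ = b i) → (∀ i j, ∫ x, (x i - b i) * (x j - b j) ∂μ = K i j) →
      ∀ f : EuclideanSpace ℝ (Fin n) → ℝ, ContDiff ℝ ∞ f → HasCompactSupport f →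
        (∫ x, f x ^ 2 ∂μ) - (∫ x, f x ∂μ) ^ 2 ≤
          C * ∫ x, ∑ i, ∑ j, K i j * (gradient f x i * gradient f x j) ∂μ) :
    ∃ C : ℝ, 0 < C ∧ ∀ (n : ℕ) (μ : Measure (EuclideanSpace ℝ (Fin n))) [IsProbabilityMeasure μ],
      HasLogConcaveDensity μ →
      DFP.AffinePoincare μ C ∧
      (∀ Λ : ℝ, 0 ≤ Λ → DFP.CovarianceLE μ Λ → DFP.SmoothInequalities μ (C * Λ)) ∧
      (∀ a : ℝ, 0 < a → LinearlySubgaussian μ a →
        DFP.SmoothInequalities μ (C * a ^ 2) ∧ DFP.OuterLogSobolev μ (C * a ^ 2) ∧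
        DFP.PolynomialLogSobolev μ (C * a ^ 2) ∧ DFP.KurtosisLogSobolev μ (C * a ^ 2) ∧
        DFP.ConvexIsoperimetry μ C a ∧ DFP.ConvexConcentration μ C a) :=
  handin5 h (outer_of h)

end Vale.Agent.P245.H316
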